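import Crest.Agent.N76.St.Abs
import Crest.Agent.N76.G.Gam
import Crest.Agent.N76.II.Defs

-- ▼ part N76/St/Schur
section

/-!
# Row 76: Bessel's inequality from Schur's test (continuous `TT*`), and the row sums of lemma St
-/

set_option autoImplicit false

open MeasureTheory Finset
open scoped ENNReal InnerProductSpace

namespace Crest.Agent.N76.St

variable {H : Type*} [NormedAddCommGroup H] [InnerProductSpace ℂ H] [CompleteSpace H]
  {Y : Type*} [MeasurableSpace Y] {μ : Measure Y}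

omit [CompleteSpace H] in
lemma ofReal_en_sq {G : Y → H} {B : ℝ} {E : Set Y} (hG : AEStronglyMeasurable G μ)
    (hB : ∀ y, ‖G y‖ ≤ B) (hE : μ E ≠ ∞) (h : H) :
    ENNReal.ofReal (en μ G h E ^ 2) = ∫⁻ y in E, ‖⟪G y, h⟫_ℂ‖ₑ ^ 2 ∂μ := by
  rw [en_sq, ofReal_integral_eq_lintegral_ofReal (int_coef hG hB hE h 2)
    (.of_forall fun _ => by positivity)]
  simp only [← ofReal_norm, ENNReal.ofReal_pow (norm_nonneg _)]

/-- **continuous `TT*` / Schur test**: a bound for the rows of the Gram kernel gives Bessel's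
inequality -/
theorem bessel_of_schur [SigmaFinite μ] {G : Y → H} {B D : ℝ} (hG : StronglyMeasurable G)
    (hB : ∀ y, ‖G y‖ ≤ B) (hD : 0 ≤ D)
    (hrow : ∀ y, ∫⁻ y', ‖⟪G y, G y'⟫_ℂ‖ₑ ∂μ ≤ ENNReal.ofReal D) (h : H) :
    ∫⁻ y, ‖⟪G y, h⟫_ℂ‖ₑ ^ 2 ∂μ ≤ ENNReal.ofReal (D * ‖h‖ ^ 2) := by
  have hG' : AEStronglyMeasurable G μ := hG.aestronglyMeasurable
  have hc : Measurable fun y => ‖⟪G y, h⟫_ℂ‖ₑ := (hG.inner stronglyMeasurable_const).enorm
  have hk : Measurable fun z : Y × Y => ‖⟪G z.1, G z.2⟫_ℂ‖ₑ :=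
    ((hG.comp_measurable measurable_fst).inner (hG.comp_measurable measurable_snd)).enorm
  have key : ∀ E : Set Y, μ E ≠ ∞ → en μ G h E ^ 2 ≤ D * ‖h‖ ^ 2 := by
    intro E hE
    set Φ := syn μ G h E with hΦ
    set S := en μ G h E ^ 2 with hS
    have hS0 : 0 ≤ S := sq_nonneg _
    have h1 : S ≤ ‖Φ‖ * ‖h‖ := by
      rw [hS, ← re_inner_syn hG' hB hE]
      exact (Complex.re_le_norm _).trans (norm_inner_le_norm (𝕜 := ℂ) Φ h)
    have h2 : ∀ g : H, ‖⟪g, Φ⟫_ℂ‖ₑ ≤ ∫⁻ y in E, ‖⟪G y, h⟫_ℂ‖ₑ * ‖⟪g, G y⟫_ℂ‖ₑ ∂μ := fun g => by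
      rw [hΦ, inner_syn hG' hB hE]
      simpa only [enorm_mul] using
        enorm_integral_le_lintegral_enorm (μ := μ.restrict E) fun y => ⟪G y, h⟫_ℂ * ⟪g, G y⟫_ℂ
    have h3 : ∫⁻ y in E, ∫⁻ y' in E, ‖⟪G y, h⟫_ℂ‖ₑ ^ 2 * ‖⟪G y, G y'⟫_ℂ‖ₑ ∂μ ∂μ ≤
        ENNReal.ofReal (D * S) := by
      rw [ENNReal.ofReal_mul hD, hS, ofReal_en_sq hG' hB hE, mul_comm,
        ← lintegral_mul_const _ (hc.pow_const 2)]
      refine lintegral_mono fun y => ?_
      rw [lintegral_const_mul' _ _ (by simp)]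
      exact mul_le_mul_right ((lintegral_mono' Measure.restrict_le_self le_rfl).trans (hrow y)) _
    have h4 : ∫⁻ y in E, ∫⁻ y' in E, ‖⟪G y', h⟫_ℂ‖ₑ ^ 2 * ‖⟪G y, G y'⟫_ℂ‖ₑ ∂μ ∂μ ≤
        ENNReal.ofReal (D * S) := by
      rw [lintegral_lintegral_swap (((hc.comp measurable_snd).pow_const 2).mul hk).aemeasurable]
      refine le_trans (le_of_eq ?_) h3
      refine lintegral_congr fun y => lintegral_congr fun y' => ?_
      rw [← ofReal_norm ⟪G y', G y⟫_ℂ, norm_inner_symm, ofReal_norm]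
    have h5 : 2 * ‖⟪Φ, Φ⟫_ℂ‖ₑ ≤ ENNReal.ofReal (D * S) + ENNReal.ofReal (D * S) := by
      refine le_trans ?_ (add_le_add h3 h4)
      have m1 : Measurable fun y => ∫⁻ y' in E, ‖⟪G y, h⟫_ℂ‖ₑ ^ 2 * ‖⟪G y, G y'⟫_ℂ‖ₑ ∂μ :=
        (((hc.comp measurable_fst).pow_const 2).mul hk).lintegral_prod_right'
      have m2 : ∀ y, Measurable fun y' => ‖⟪G y, h⟫_ℂ‖ₑ ^ 2 * ‖⟪G y, G y'⟫_ℂ‖ₑ := fun y =>
        (hk.comp measurable_prodMk_left).const_mul _
      rw [← lintegral_add_left m1]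
      refine (mul_le_mul_right (h2 Φ) _).trans ?_
      rw [← lintegral_const_mul' _ _ (by simp)]
      refine lintegral_mono fun y => ?_
      simp only
      rw [← lintegral_add_left (m2 y),
        ← ofReal_norm ⟪Φ, G y⟫_ℂ, norm_inner_symm, ofReal_norm]
      refine (mul_le_mul_right (mul_le_mul_right (h2 (G y)) _) _).trans ?_
      rw [← lintegral_const_mul' _ _ (by simp), ← lintegral_const_mul' _ _ (by simp)]
      refine lintegral_mono fun y' => ?_
      simp only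
      rw [← add_mul, ← mul_assoc, ← mul_assoc]
      refine mul_le_mul_left ?_ _
      simp only [enorm_eq_nnnorm]
      norm_cast
      exact two_mul_le_add_sq _ _
    have h6 : ‖Φ‖ ^ 2 ≤ D * S := by
      rw [← two_mul, ENNReal.mul_le_mul_iff_right two_ne_zero (by simp), ← ofReal_norm,
        ENNReal.ofReal_le_ofReal_iff (by positivity), inner_self_eq_norm_sq_to_K] at h5
      simpa using h5
    rcases hS0.eq_or_lt with h0 | h0
    · rw [← h0]; positivity
    · have h7 : S ^ 2 ≤ D * S * ‖h‖ ^ 2 :=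
        calc S ^ 2 ≤ (‖Φ‖ * ‖h‖) ^ 2 := by gcongr
          _ = ‖Φ‖ ^ 2 * ‖h‖ ^ 2 := by ring
          _ ≤ _ := by gcongr
      nlinarith
  rw [← setLIntegral_univ, ← iUnion_spanningSets μ,
    setLIntegral_iUnion_of_directed _ (monotone_spanningSets μ).directed_le]
  refine iSup_le fun m => ?_
  rw [← ofReal_en_sq hG' hB (measure_spanningSets_lt_top μ m).ne]
  exact ENNReal.ofReal_le_ofReal (key _ (measure_spanningSets_lt_top μ m).ne)

lemma sum_range_rpow_le {s : ℝ} (hs0 : 0 ≤ s) (hs1 : s < 1) (N : ℕ) :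
    ∑ m ∈ range N, ((m : ℝ) + 1) ^ (-s) ≤ (N : ℝ) ^ (1 - s) / (1 - s) := by
  have h1 : 0 < 1 - s := by linarith
  induction N with
  | zero => simp [Real.zero_rpow h1.ne']
  | succ N ih =>
    rw [sum_range_succ, le_div_iff₀ h1, add_mul]
    rw [le_div_iff₀ h1] at ih
    have hN : (0 : ℝ) < (N : ℝ) + 1 := by positivity
    have h2 := rpow_one_add_le_one_add_mul_self (s := -(1 / ((N : ℝ) + 1))) (p := 1 - s)
      (by rw [neg_le_neg_iff, div_le_one hN]; linarith [Nat.cast_nonneg (α := ℝ) N]) h1.le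
      (by linarith)
    have h3 : (N : ℝ) ^ (1 - s) = ((N : ℝ) + 1) ^ (1 - s) * (1 + -(1 / ((N : ℝ) + 1))) ^ (1 - s) := by
      rw [← Real.mul_rpow hN.le (by field_simp; ring_nf; positivity)]
      congr 1; field_simp; ring
    have h4 : ((N : ℝ) + 1) ^ (1 - s) = ((N : ℝ) + 1) * ((N : ℝ) + 1) ^ (-s) := by
      rw [sub_eq_add_neg, Real.rpow_add hN, Real.rpow_one]
    have h5 : (0 : ℝ) < ((N : ℝ) + 1) ^ (-s) := by positivity
    have h6 : (N : ℝ) ^ (1 - s) ≤ ((N : ℝ) + 1) ^ (1 - s) - ((N : ℝ) + 1) ^ (-s) * (1 - s) := by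
      rw [h3]
      refine (mul_le_mul_of_nonneg_left h2 (by positivity)).trans (le_of_eq ?_)
      rw [h4]; field_simp; ring
    push_cast
    linarith



end Crest.Agent.N76.St
end

-- ▼ part N76/St/Main

/-! # Row 76: the one dimensional weighted Strichartz lemma `St` -/

set_option autoImplicit false

open MeasureTheory Set
open scoped ENNReal ComplexConjugate

namespace Crest.Agent.N76.II

open Crest.Agent.N76.Red (V ph)
open Crest.Agent.N76.G Crest.Agent.N76.St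

namespace StAux

lemma sum_int_rpow_le {s : ℝ} (hs0 : 0 ≤ s) (hs1 : s < 1) (I : Finset ℤ) (i : ℤ) (N : ℕ)
    (hN : ∀ j ∈ I, |i - j| < N) :
    ∑ j ∈ I, (1 + |(i : ℝ) - j|) ^ (-s) ≤ 2 * ((N : ℝ) ^ (1 - s) / (1 - s)) := by
  have key : ∀ t : Finset ℤ, t ⊆ I → Set.InjOn (fun j => (i - j).natAbs) t →
      ∑ j ∈ t, (1 + |(i : ℝ) - j|) ^ (-s) ≤ (N : ℝ) ^ (1 - s) / (1 - s) := by
    intro t ht h1
    have h3 : ∀ j : ℤ, |(i : ℝ) - j| = ((i - j).natAbs : ℕ) := fun j => by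
      rw [Nat.cast_natAbs]; push_cast; rfl
    rw [Finset.sum_congr rfl fun j _ => by rw [h3 j, add_comm],
      ← Finset.sum_image (f := fun m : ℕ => ((m : ℝ) + 1) ^ (-s)) h1]
    refine le_trans (Finset.sum_le_sum_of_subset_of_nonneg (fun m hm => ?_) fun _ _ _ => by
      positivity) (sum_range_rpow_le hs0 hs1 N)
    obtain ⟨j, hj, rfl⟩ := Finset.mem_image.1 hm
    have := hN j (ht hj)
    rw [Int.abs_eq_natAbs] at this
    exact Finset.mem_range.2 (by exact_mod_cast this)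
  rw [← Finset.sum_filter_add_sum_filter_not I fun j : ℤ => j ≤ i, two_mul]
  refine add_le_add (key _ (Finset.filter_subset _ _) ?_) (key _ (Finset.filter_subset _ _) ?_)
  · intro a ha b hb hab
    have := (Finset.mem_filter.1 ha).2
    have := (Finset.mem_filter.1 hb).2
    simp only at hab
    omega
  · intro a ha b hb hab
    have := (Finset.mem_filter.1 ha).2
    have := (Finset.mem_filter.1 hb).2
    simp only at hab
    omega

lemma row_int {γ : ℝ} (h0 : 0 < γ) (h1 : γ < 1 / 2) : ∃ C : ℝ, 0 < C ∧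
    ∀ (I : Finset ℤ) (M : ℤ → ℝ) (i : ℤ) (x : ℝ), 1 ≤ x → (∀ j ∈ I, 0 ≤ M j) →
      (∀ j ∈ I, |(i : ℝ) - j| ≤ 4 * x) →
      ∑ j ∈ I, (1 + |(i : ℝ) - j|) ^ (-γ) * M j ^ γ ≤
        C * x ^ (1 - 2 * γ) * (∑ j ∈ I, M j) ^ γ := by
  have h2 : 0 < 1 - γ := by linarith
  set s : ℝ := γ / (1 - γ) with hs
  have hs0 : 0 ≤ s := by positivity
  have hs1 : s < 1 := by rw [hs, div_lt_one h2]; linarith
  have hs2 : 0 < 1 - s := by linarith
  refine ⟨(2 / (1 - s)) ^ (1 - γ) * 5 ^ (1 - 2 * γ), by positivity, fun I M i x hx hM hI => ?_⟩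
  have hpq : (1 - γ)⁻¹.HolderConjugate γ⁻¹ := Real.HolderConjugate.one_sub_inv_inv h0 (by linarith)
  refine (Real.inner_le_Lp_mul_Lq_of_nonneg I hpq (fun _ _ => by positivity)
    fun j hj => Real.rpow_nonneg (hM j hj) _).trans ?_
  have e1 : ∀ j : ℤ, ((1 + |(i : ℝ) - j|) ^ (-γ)) ^ (1 - γ)⁻¹ = (1 + |(i : ℝ) - j|) ^ (-s) :=
    fun j => by rw [← Real.rpow_mul (by positivity), hs]; congr 1; ring
  have e2 : ∑ j ∈ I, (M j ^ γ) ^ γ⁻¹ = ∑ j ∈ I, M j :=
    Finset.sum_congr rfl fun j hj => Real.rpow_rpow_inv (hM j hj) h0.ne'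
  have hS : 0 ≤ ∑ j ∈ I, M j := Finset.sum_nonneg hM
  have hN : ((⌊4 * x⌋₊ + 1 : ℕ) : ℝ) ≤ 5 * x := by
    push_cast; linarith [Nat.floor_le (by linarith : 0 ≤ 4 * x)]
  have h3 := sum_int_rpow_le hs0 hs1 I i (⌊4 * x⌋₊ + 1) fun j hj => by
    have h4 := (hI j hj).trans_lt (Nat.lt_floor_add_one _)
    exact_mod_cast h4
  simp only [e1, e2, one_div, inv_inv]
  calc _ ≤ (2 * ((5 * x) ^ (1 - s) / (1 - s))) ^ (1 - γ) * (∑ j ∈ I, M j) ^ γ := by
        gcongr
        refine h3.trans ?_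
        gcongr
    _ = _ := by
        rw [show 2 * ((5 * x) ^ (1 - s) / (1 - s)) = 2 / (1 - s) * (5 * x) ^ (1 - s) by ring,
          Real.mul_rpow (by positivity) (by positivity), ← Real.rpow_mul (by positivity),
          show (1 - s) * (1 - γ) = 1 - 2 * γ by rw [hs]; field_simp; ring,
          Real.mul_rpow (by norm_num) (by positivity)]
        ring

/-- the identification of `V 1` with the real line -/
noncomputable def e1 : V 1 ≃ᵐ ℝ :=
  (MeasurableEquiv.toLp 2 (Fin 1 → ℝ)).symm.trans (MeasurableEquiv.funUnique (Fin 1) ℝ)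

lemma e1_apply (ξ : V 1) : e1 ξ = ξ 0 := rfl

lemma mp_e1 : MeasurePreserving e1 volume volume :=
  (PiLp.volume_preserving_ofLp (Fin 1)).trans (volume_preserving_funUnique (Fin 1) ℝ)

lemma norm_sq_V1 (ξ : V 1) : ‖ξ‖ ^ 2 = ξ 0 ^ 2 := by simp [EuclideanSpace.real_norm_sq_eq]

/-- the test vectors -/
noncomputable def GG (r t y : ℝ) : L2 1 :=
  (((2 * r ^ 2) ^ (-(1 / 4) : ℝ) : ℝ) : ℂ) • gam r t (EuclideanSpace.single 0 y, 0)

lemma continuous_GG {r : ℝ} (hr : 0 < r) (t : ℝ) : Continuous (GG r t) := by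
  have h1 : Continuous fun y : ℝ => (EuclideanSpace.single (0 : Fin 1) y : V 1) := by
    have : (fun y : ℝ => (EuclideanSpace.single (0 : Fin 1) y : V 1)) =
        fun y : ℝ => y • (EuclideanSpace.single (0 : Fin 1) (1 : ℝ) : V 1) := by
      funext y; ext i; fin_cases i; simp
    rw [this]; fun_prop
  exact ((continuous_gam hr).comp (f := fun y : ℝ => (t, (EuclideanSpace.single 0 y, (0 : V 1))))
    (by fun_prop)).const_smul (((2 * r ^ 2) ^ (-(1 / 4) : ℝ) : ℝ) : ℂ)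

lemma norm_inner_GG {r : ℝ} (hr : 0 < r) (t t' y y' : ℝ) :
    ‖inner ℂ (GG r t y) (GG r t' y')‖ = (4 * r ^ 4 + 4 * (t - t') ^ 2) ^ (-(1 / 4) : ℝ) *
      Real.exp (-(2 * Real.pi * r ^ 2 / (4 * r ^ 4 + 4 * (t - t') ^ 2)) * (y - y') ^ 2) := by
  have hs : sig r t r t' = 4 * r ^ 4 + 4 * (t - t') ^ 2 := by unfold sig; ring
  rw [GG, GG, inner_smul_left, inner_smul_right, Complex.conj_ofReal, norm_mul, norm_mul,
    Complex.norm_real, Real.norm_of_nonneg (by positivity), norm_inner_gam hr hr, pre, Qf, hs,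
    ← mul_assoc, ← mul_assoc]
  congr 1
  · rw [← Real.mul_rpow (by positivity) (by positivity), Real.div_rpow (by positivity)
      (by positivity), show 2 * r ^ 2 * (2 * r ^ 2) = 4 * r ^ 2 * r ^ 2 by ring, Nat.cast_one,
      Real.rpow_neg (by positivity), Real.rpow_neg (by positivity)]
    field_simp
  · congr 1
    simp only [pos, Prod.fst_sub, Prod.snd_sub, sub_self, smul_zero, sub_zero, norm_zero,
      norm_sq_V1]
    simp
    ring

lemma bessel_GG {r : ℝ} (hr : 0 < r) (t : ℝ) (g : L2 1) :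
    ∫⁻ y, ‖inner ℂ (GG r t y) g‖ₑ ^ 2 ≤ ‖g‖ₑ ^ 2 := by
  have h := bessel_of_schur (μ := volume) (G := GG r t) (B := (2 * r ^ 2) ^ (-(1 / 4) : ℝ)) (D := 1)
    (continuous_GG hr t).stronglyMeasurable
    (fun y => by rw [GG, norm_smul, norm_gam hr, mul_one, Complex.norm_real,
      Real.norm_of_nonneg (by positivity)]) zero_le_one (fun y => ?_) g
  · rwa [one_mul, ENNReal.ofReal_pow (norm_nonneg _), ofReal_norm] at h
  have hb : 0 < Real.pi / (2 * r ^ 2) := by have := Real.pi_pos; positivity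
  have h1 : ∀ y', ‖inner ℂ (GG r t y) (GG r t y')‖ = (√(2 * r ^ 2))⁻¹ *
      Real.exp (-(Real.pi / (2 * r ^ 2)) * (y' - y) ^ 2) := fun y' => by
    rw [norm_inner_GG hr, sub_self, show 4 * r ^ 4 + 4 * (0 : ℝ) ^ 2 = (2 * r ^ 2) ^ 2 by ring,
      ← Real.rpow_natCast (2 * r ^ 2), ← Real.rpow_mul (by positivity), Real.sqrt_eq_rpow,
      ← Real.rpow_neg (by positivity), Real.rpow_natCast]
    congr 2
    · norm_num
    · field_simp; ring
  simp only [← ofReal_norm, h1]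
  rw [← ofReal_integral_eq_lintegral_ofReal
    (((integrable_exp_neg_mul_sq hb).comp_sub_right y).const_mul _)
    (.of_forall fun _ => by positivity), integral_const_mul,
    integral_sub_right_eq_self (fun x : ℝ => Real.exp (-(Real.pi / (2 * r ^ 2)) * x ^ 2)) y,
    integral_gaussian, div_div_cancel₀ Real.pi_pos.ne', inv_mul_cancel₀ (by positivity)]

lemma exists_vec {r : ℝ} (hr : 0 < r) {c : ℝ → ℂ} (hc : MemLp c 2 volume)
    (hs : ∀ η, 1 / r < |η| → c η = 0) : ∃ h : L2 1,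
    ‖h‖ ^ 2 ≤ Real.exp (2 * Real.pi) * ∫ η, ‖c η‖ ^ 2 ∧
      ∀ t y, inner ℂ (GG r t y) h = U1 t c y := by
  set F : ℝ → ℂ := fun η => (Real.exp (Real.pi * r ^ 2 * η ^ 2) : ℂ) * c η with hF
  have hb : ∀ η, ‖F η‖ ≤ Real.exp Real.pi * ‖c η‖ := fun η => by
    rcases lt_or_ge (1 / r) |η| with h1 | h1
    · simp [hF, hs η h1]
    rw [hF, norm_mul, Complex.norm_real, Real.norm_of_nonneg (by positivity)]
    refine mul_le_mul_of_nonneg_right (Real.exp_le_exp.2 ?_) (norm_nonneg _)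
    rw [mul_assoc]
    refine mul_le_of_le_one_right Real.pi_pos.le ?_
    rw [le_div_iff₀ hr] at h1
    rw [← sq_abs η, ← mul_pow, mul_comm]
    exact pow_le_one₀ (by positivity) h1
  have hm : AEStronglyMeasurable F volume :=
    (Continuous.aestronglyMeasurable (by fun_prop)).mul hc.1
  have hF2 : MemLp F 2 volume := hc.of_le_mul hm (.of_forall hb)
  have hF3 : MemLp (F ∘ e1) 2 volume := hF2.comp_measurePreserving mp_e1
  refine ⟨hF3.toLp _, ?_, fun t y => ?_⟩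
  · have h1 : ‖hF3.toLp _‖ ^ 2 = ∫ ξ, ‖F (e1 ξ)‖ ^ 2 := by
      rw [← inner_self_eq_norm_sq (𝕜 := ℂ), L2.inner_def, ← integral_re (L2.integrable_inner _ _)]
      exact integral_congr_ae (hF3.coeFn_toLp.mono fun ξ hξ => by
        simp only [hξ, inner_self_eq_norm_sq, Function.comp])
    rw [h1, mp_e1.integral_comp' (fun η => ‖F η‖ ^ 2), ← integral_const_mul]
    refine integral_mono ((memLp_two_iff_integrable_sq_norm hm).1 hF2)
      (((memLp_two_iff_integrable_sq_norm hc.1).1 hc).const_mul _) fun ξ => ?_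
    refine (pow_le_pow_left₀ (norm_nonneg _) (hb ξ) 2).trans (le_of_eq ?_)
    rw [mul_pow, ← Real.exp_nat_mul]; norm_num
  · rw [GG, inner_smul_left, Complex.conj_ofReal, ← co, co_eq hr, ← integral_const_mul, U1,
      ← mp_e1.integral_comp']
    refine integral_congr_ae (hF3.coeFn_toLp.mono fun ξ hξ => ?_)
    simp only
    rw [hξ, conj_gamF, Function.comp, hF]
    simp only [sub_zero, norm_sq_V1, EuclideanSpace.inner_single_left, e1_apply, conj_trivial]
    rw [← mul_assoc, ← mul_assoc, ← mul_assoc, ← Complex.ofReal_mul,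
      ← Real.rpow_add (by positivity), Nat.cast_one, neg_add_cancel, Real.rpow_zero,
      Complex.ofReal_one, one_mul, Complex.ofReal_exp, ← Complex.exp_add, mul_comm, ph]
    congr 2
    push_cast; ring

lemma kernel_le {R r l t t' y y' : ℝ} (hR : 0 < R) (hr : 0 < r) (hl : r + R / r ≤ l)
    (ht : |t - t'| ≤ 4 * R) :
    ‖inner ℂ (GG r t y) (GG r t' y')‖ ≤ Real.exp 4 * (4 * r ^ 4 + 4 * (t - t') ^ 2) ^ (-(1 / 4) : ℝ) *
      Real.exp (-|(⌊y / l⌋ : ℝ) - ⌊y' / l⌋|) := by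
  have hl0 : 0 < l := lt_of_lt_of_le (by positivity) hl
  rw [norm_inner_GG hr, mul_comm (Real.exp 4), mul_assoc _ (Real.exp 4), ← Real.exp_add]
  refine mul_le_mul_of_nonneg_left (Real.exp_le_exp.2 ?_) (by positivity)
  have h1 : r ≤ l := le_trans (le_add_of_nonneg_right (by positivity)) hl
  have h2 : R ≤ l * r := by rw [← div_le_iff₀ hr]; linarith
  have h3 : 4 * r ^ 4 + 4 * (t - t') ^ 2 ≤ 68 * (l ^ 2 * r ^ 2) := by
    have h4 : (t - t') ^ 2 ≤ (4 * (l * r)) ^ 2 := by rw [← sq_abs]; gcongr; linarith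
    have h5 : r ^ 2 * r ^ 2 ≤ l ^ 2 * r ^ 2 := by gcongr
    nlinarith
  have h4 : 1 / (12 * l ^ 2) ≤ 2 * Real.pi * r ^ 2 / (4 * r ^ 4 + 4 * (t - t') ^ 2) := by
    rw [div_le_div_iff₀ (by positivity) (by positivity)]
    nlinarith [Real.pi_gt_three, mul_pos (pow_pos hl0 2) (pow_pos hr 2)]
  have h5 : |(⌊y / l⌋ : ℝ) - ⌊y' / l⌋| ≤ |(y - y') / l| + 1 := by
    rw [sub_div, abs_le]
    constructor <;> linarith [Int.floor_le (y / l), Int.lt_floor_add_one (y / l),
      Int.floor_le (y' / l), Int.lt_floor_add_one (y' / l), le_abs_self (y / l - y' / l),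
      neg_abs_le (y / l - y' / l)]
  have h6 : 1 / (12 * l ^ 2) * (y - y') ^ 2 = |(y - y') / l| ^ 2 / 12 := by
    rw [sq_abs]; field_simp
  nlinarith [mul_le_mul_of_nonneg_right h4 (sq_nonneg (y - y')), sq_nonneg (|(y - y') / l| - 6)]

end StAux

open StAux in
/-- **Lemma St**. -/
theorem st : St := by
  intro q hq
  obtain ⟨C₁, hC₁, h₁⟩ := st_abs hq
  set γ : ℝ := 1 / (2 * q) with hγ
  have hq0 : 0 < q := by linarith
  have hγ0 : 0 < γ := by positivity
  have hγ1 : γ < 1 / 2 := by rw [hγ]; gcongr; linarith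
  have hγ2 : 1 / q = 2 * γ := by rw [hγ]; field_simp
  obtain ⟨C₂, hC₂, h₂⟩ := row_int hγ0 hγ1
  refine ⟨C₁ * (Real.exp 4 ^ (2 * γ) * (1 + C₂)) * Real.exp (2 * Real.pi), by positivity, ?_⟩
  intro R L r l A hL hLR hr hl hA I hI W M hW hW0 hM hWq c hc hs
  have hR : 0 < R := hL.trans_le hLR
  have hl0 : 0 < l := lt_of_lt_of_le (by positivity) hl
  obtain ⟨h, hh, hU⟩ := exists_vec hr hc hs
  have hS : 0 ≤ ∑ k ∈ I, M k := Finset.sum_nonneg fun k hk => (hM k hk).1
  have hx : 1 ≤ R / L := (one_le_div hL).2 hLR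
  have hij : ∀ i ∈ I, ∀ j ∈ I, |(i : ℝ) * L - j * L| ≤ 4 * R := fun i hi j hj =>
    (abs_sub _ _).trans (by linarith [hI i hi, hI j hj])
  set D : ℝ := Real.exp 4 ^ (2 * γ) * ((A / r) ^ (2 * γ) +
    C₂ * (L ^ (-γ) * A ^ γ * (R / L) ^ (1 - 2 * γ) * (∑ k ∈ I, M k) ^ γ)) with hD
  have key := h₁ (μ := volume) (ι := I) (fun k y => GG r (k * L) y) (fun y => ⌊y / l⌋)
    (fun k => W k)
    (fun i j => Real.exp 4 * (4 * r ^ 4 + 4 * ((i : ℤ) * L - (j : ℤ) * L) ^ 2) ^ (-(1 / 4) : ℝ))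
    (fun k => M k) D (fun k => (continuous_GG hr _).aestronglyMeasurable)
    (Int.measurable_floor.comp (measurable_id.div_const l)) (fun k => hW k)
    (fun i j => by positivity) (fun i j => by rw [← neg_sub, neg_sq]) (fun k => (hM k k.2).1)
    (by positivity) (fun k g => bessel_GG hr _ g)
    (fun i j y y' => kernel_le hR hr hl (hij i i.2 j j.2))
    (fun k m => (lintegral_mono_set fun y hy => ?_).trans (hWq k k.2 (m * l))) (fun i => ?_) h
  · have e : ∀ k : ℤ, ∫⁻ y, ENNReal.ofReal (L * W k y * ‖U1 (k * L) c y‖ ^ 2) =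
        ENNReal.ofReal L * ∫⁻ y, ENNReal.ofReal (W k y) * ‖inner ℂ (GG r (k * L) y) h‖ₑ ^ 2 := by
      intro k
      rw [← lintegral_const_mul' _ _ ENNReal.ofReal_ne_top]
      refine lintegral_congr fun y => ?_
      rw [hU, mul_assoc, ENNReal.ofReal_mul hL.le, ENNReal.ofReal_mul (hW0 k y),
        ENNReal.ofReal_pow (norm_nonneg _), ofReal_norm]
    simp only [e]
    rw [← Finset.mul_sum, ← Finset.sum_coe_sort I]
    refine (mul_le_mul_right key _).trans ?_
    rw [← ENNReal.ofReal_mul hL.le]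
    refine ENNReal.ofReal_le_ofReal ?_
    have e2 : L * (L ^ (-γ) * A ^ γ * (R / L) ^ (1 - 2 * γ) * (∑ k ∈ I, M k) ^ γ) =
        R ^ (1 - γ) * (A * (L / R * ∑ k ∈ I, M k)) ^ γ := by
      rw [Real.mul_rpow hA (by positivity), Real.mul_rpow (by positivity) hS,
        Real.div_rpow hR.le hL.le, Real.div_rpow hL.le hR.le,
        show 1 - 2 * γ = 1 - γ - γ by ring, Real.rpow_sub hR (1 - γ), Real.rpow_sub hL (1 - γ),
        Real.rpow_sub hL 1, Real.rpow_one, Real.rpow_neg hL.le]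
      field_simp
    have e3 : L * D ≤ Real.exp 4 ^ (2 * γ) * (1 + C₂) *
        (R ^ (1 - γ) * (A * (L / R * ∑ k ∈ I, M k)) ^ γ + L * (A / r) ^ (1 / q)) := by
      rw [hD, hγ2, ← e2, mul_left_comm, mul_assoc (Real.exp 4 ^ (2 * γ))]
      refine mul_le_mul_of_nonneg_left ?_ (by positivity)
      have p1 : 0 ≤ L * (A / r) ^ (2 * γ) := by positivity
      have p2 : 0 ≤ L * (L ^ (-γ) * A ^ γ * (R / L) ^ (1 - 2 * γ) * (∑ k ∈ I, M k) ^ γ) := by
        positivity
      nlinarith [mul_nonneg hC₂.le p1]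
    calc L * (C₁ * D * ‖h‖ ^ 2) = C₁ * (L * D) * ‖h‖ ^ 2 := by ring
      _ ≤ C₁ * (Real.exp 4 ^ (2 * γ) * (1 + C₂) *
          (R ^ (1 - γ) * (A * (L / R * ∑ k ∈ I, M k)) ^ γ + L * (A / r) ^ (1 / q))) *
          (Real.exp (2 * Real.pi) * ∫ η, ‖c η‖ ^ 2) := by gcongr
      _ = _ := by ring
  · have hy' : ⌊y / l⌋ = m := hy
    have h1 := Int.floor_le (y / l)
    have h2 := Int.lt_floor_add_one (y / l)
    rw [hy', le_div_iff₀ hl0] at h1
    rw [hy', div_lt_iff₀ hl0] at h2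
    exact ⟨h1, by linarith⟩
  · have hrow := h₂ I M i (R / L) hx (fun j hj => (hM j hj).1) fun j hj => by
      have := hij i i.2 j hj
      rw [← sub_mul, abs_mul, abs_of_pos hL] at this
      rw [← mul_div_assoc, le_div_iff₀ hL]; exact this
    have hMi := hM i i.2
    have term : ∀ j ∈ I, (Real.exp 4 * (4 * r ^ 4 + 4 * ((i : ℤ) * L - j * L) ^ 2) ^ (-(1 / 4) : ℝ) *
        √(M i * M j)) ^ (1 / q) ≤ Real.exp 4 ^ (2 * γ) * ((if j = i then (A / r) ^ (2 * γ) else 0) +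
          L ^ (-γ) * A ^ γ * ((1 + |((i : ℤ) : ℝ) - j|) ^ (-γ) * M j ^ γ)) := by
      intro j hj
      have hMj := hM j hj
      rw [hγ2, mul_assoc, Real.mul_rpow (by positivity) (by positivity)]
      refine mul_le_mul_of_nonneg_left ?_ (by positivity)
      split_ifs with hji
      · subst hji
        refine le_add_of_le_of_nonneg (Real.rpow_le_rpow (by positivity) ?_ (by positivity))
          (by have := hMi.1; positivity)
        rw [Real.sqrt_mul_self hMi.1, div_eq_inv_mul A]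
        refine mul_le_mul ?_ hMi.2 hMi.1 (by positivity)
        calc _ ≤ (r ^ 4) ^ (-(1 / 4) : ℝ) :=
              Real.rpow_le_rpow_of_nonpos (by positivity)
                (by rw [sub_self]; linarith [pow_pos hr 4]) (by norm_num)
          _ = r⁻¹ := by
              rw [← Real.rpow_natCast, ← Real.rpow_mul hr.le, ← Real.rpow_neg_one]; norm_num
      · have h1 : (1 : ℝ) ≤ |((i : ℤ) : ℝ) - j| := by
          have : (1 : ℤ) ≤ |(i : ℤ) - j| := Int.one_le_abs (sub_ne_zero.2 (Ne.symm hji))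
          exact_mod_cast this
        have h2 : (4 * r ^ 4 + 4 * ((i : ℤ) * L - j * L) ^ 2) ^ (-(1 / 4) : ℝ) ≤
            (L * (1 + |((i : ℤ) : ℝ) - j|)) ^ (-(1 / 2) : ℝ) :=
          calc _ ≤ ((L * (1 + |((i : ℤ) : ℝ) - j|)) ^ 2) ^ (-(1 / 4) : ℝ) := by
                refine Real.rpow_le_rpow_of_nonpos (by positivity) ?_ (by norm_num)
                have h3 : (L * (1 + |((i : ℤ) : ℝ) - j|)) ^ 2 ≤ (L * (2 * |((i : ℤ) : ℝ) - j|)) ^ 2 := by
                  gcongr; linarith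
                rw [mul_pow L (2 * _), mul_pow 2, sq_abs] at h3
                nlinarith [pow_pos hr 4]
            _ = _ := by rw [← Real.rpow_natCast, ← Real.rpow_mul (by positivity)]; norm_num
        rw [zero_add]
        calc _ ≤ ((L * (1 + |((i : ℤ) : ℝ) - j|)) ^ (-(1 / 2) : ℝ) * √(A * M j)) ^ (2 * γ) := by
              gcongr
              · exact hMj.1
              · exact hMi.2
          _ = _ := by
              rw [Real.mul_rpow (by positivity) (by positivity), ← Real.rpow_mul (by positivity),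
                Real.sqrt_eq_rpow, ← Real.rpow_mul (mul_nonneg hA hMj.1),
                show -(1 / 2) * (2 * γ) = -γ by ring, show 1 / 2 * (2 * γ) = γ by ring,
                Real.mul_rpow hL.le (by positivity), Real.mul_rpow hA hMj.1]
              ring
    rw [Finset.sum_coe_sort I fun j : ℤ => (Real.exp 4 *
      (4 * r ^ 4 + 4 * ((i : ℤ) * L - j * L) ^ 2) ^ (-(1 / 4) : ℝ) * √(M i * M j)) ^ (1 / q)]
    refine (Finset.sum_le_sum term).trans ?_
    rw [← Finset.mul_sum, Finset.sum_add_distrib, Finset.sum_ite_eq' I, if_pos i.2,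
      ← Finset.mul_sum, hD]
    refine mul_le_mul_of_nonneg_left (add_le_add le_rfl ?_) (by positivity)
    refine (mul_le_mul_of_nonneg_left hrow (by positivity)).trans (le_of_eq (by ring))

end Crest.Agent.N76.II
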